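import Vale.Agent.P313.H463.Cat17

/-!
`BPL` in logarithmic space with a catalytic tape: deterministic machines which have, besides their
(small) work tapes, one tape full of arbitrary data, which they may use but must restore.
Simultaneous bounds for the time, for the clean space and for the catalytic space. `CatTISP t s u`
and `CatSolves` are about promise problems; the language `A` is the promise problem `A`, `Aᶜ`.
`small κ x` is the number `2 ^ (- κ(n) log n)`, `point κ M c x` evaluates the variable `none` at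
this number and the variable `some i` at the acceptance probability of `M i` on the input `x`.
-/

namespace Vale.Agent.Results.P313.CatalyticTape

open Vale.Agent.P313

theorem result :
    -- (1) polynomial time, clean space `O(log n)`, catalytic space `O(log ^ 2 n)`
    (∀ (A : Set (List Bool)), BPL A →
      CatTISP (fun n => n + 2) (fun n => Nat.log 2 (n + 2)) (fun n => Nat.log 2 (n + 2) ^ 2)
        A Aᶜ) ∧
    -- (2) the general tradeoff
    (∀ (κ : ℕ → ℕ), LogConstructible κ → (∀ n, 1 ≤ κ n) → ∀ (A : Set (List Bool)), BPL A →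
      CatTISP (fun n => (n + 2) ^ κ n) (fun n => κ n * Nat.log 2 (n + 2))
        (fun n => Nat.log 2 (n + 2) ^ 2 / (κ n * (Nat.log 2 (κ n) + 1)) +
          Nat.log 2 (n + 2) * Nat.log 2 (Nat.log 2 (n + 2))) A Aᶜ) ∧
    -- (3) real exponents
    (∀ (a b : ℕ), 0 < a → 2 * a < b → ∀ (A : Set (List Bool)), BPL A →
      ∃ (M : RTM) (c : ℝ), M.CatSolves A Aᶜ
        (fun n => 2 ^ (c * Real.logb 2 (n + 2) ^ (1 + (a : ℝ) / b)))
        (fun n => c * Real.logb 2 (n + 2) ^ (1 + (a : ℝ) / b))
        (fun n => c * Real.logb 2 (n + 2) ^ (2 - (a : ℝ) / b) /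
          Real.logb 2 (Real.logb 2 (n + 2) + 1))) ∧
    -- (4) machines whose error decays with rate `1 / ρ` in the number of random bits
    (∀ (κ lam ρ : ℕ → ℕ), LogConstructible κ → LogConstructible lam → (∀ n, 1 ≤ κ n) →
      (∀ n, 1 ≤ ρ n ∧ ρ n ≤ 2 ^ lam n) → ∀ (A : Set (List Bool)), BPLrate ρ A →
      CatTISP (fun n => (n + 2) ^ κ n) (fun n => κ n * Nat.log 2 (n + 2))
        (fun n => Nat.log 2 (n + 2) * (Nat.log 2 (Nat.log 2 (n + 2)) + 1 +
          lam n / (κ n * (Nat.log 2 (κ n * (Nat.log 2 (n + 2) / lam n + 1)) + 1)))) A Aᶜ) ∧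
    -- (5) polynomials in acceptance probabilities: at least `n ^ (- e κ)`, or at most zero
    (∀ (κ : ℕ → ℕ), LogConstructible κ → (∀ n, 1 ≤ κ n) →
      ∀ (k : ℕ) (M : Fin k → RTM) (c : Fin k → ℕ),
        (∀ i, (M i).Bounded (fun n => (n + 2) ^ c i) (fun n => c i * Nat.log 2 (n + 2))) →
        ∀ (P : MvPolynomial (Option (Fin k)) ℤ) (e : ℕ),
        CatTISP (fun n => (n + 2) ^ κ n) (fun n => κ n * Nat.log 2 (n + 2))
          (fun n => Nat.log 2 (n + 2) ^ 2 / (κ n * (Nat.log 2 (κ n) + 1)) +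
            Nat.log 2 (n + 2) * Nat.log 2 (Nat.log 2 (n + 2)))
          {x | 1 / ((x.length : ℚ) + 2) ^ (e * κ x.length) ≤
            MvPolynomial.aeval (PT.point κ M c x) P}
          {x | MvPolynomial.aeval (PT.point κ M c x) P ≤ 0}) ∧
    -- (6) the same with real exponents
    (∀ (a b : ℕ), 0 < a → 2 * a < b →
      ∀ (k : ℕ) (M : Fin k → RTM) (c : Fin k → ℕ),
        (∀ i, (M i).Bounded (fun n => (n + 2) ^ c i) (fun n => c i * Nat.log 2 (n + 2))) →
        ∀ (P : MvPolynomial (Fin k) ℤ) (e : ℕ),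
        ∃ (D : RTM) (C : ℝ), D.CatSolves
          {x | 2 ^ (-(e * Real.logb 2 ((x.length : ℝ) + 2) ^ (1 + (a : ℝ) / b))) ≤
            ((MvPolynomial.aeval (fun i =>
              (M i).probAt x true ((x.length + 2) ^ c i) 0 (M i).init) P : ℚ) : ℝ)}
          {x | MvPolynomial.aeval (fun i =>
              (M i).probAt x true ((x.length + 2) ^ c i) 0 (M i).init) P ≤ 0}
          (fun n => 2 ^ (C * Real.logb 2 (n + 2) ^ (1 + (a : ℝ) / b)))
          (fun n => C * Real.logb 2 (n + 2) ^ (1 + (a : ℝ) / b))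
          (fun n => C * Real.logb 2 (n + 2) ^ (2 - (a : ℝ) / b) /
            Real.logb 2 (Real.logb 2 (n + 2) + 1))) ∧
    -- (7) as (5), machines with at most `2 ^ lam` random bits
    (∀ (κ lam : ℕ → ℕ), LogConstructible κ → LogConstructible lam → (∀ n, 1 ≤ κ n) →
      ∀ (k : ℕ) (M : Fin k → RTM) (c : Fin k → ℕ),
        (∀ i, (M i).Bounded (fun n => (n + 2) ^ c i) (fun n => c i * Nat.log 2 (n + 2))) →
        (∀ (i : Fin k) (x : List Bool) (v : Bool),
          (M i).probAt x v ((x.length + 2) ^ c i) (2 ^ lam x.length + 1) (M i).init = 0) →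
        ∀ (P : MvPolynomial (Option (Fin k)) ℤ) (e : ℕ),
        CatTISP (fun n => (n + 2) ^ κ n) (fun n => κ n * Nat.log 2 (n + 2))
          (fun n => Nat.log 2 (n + 2) * (Nat.log 2 (Nat.log 2 (n + 2)) + 1 +
            lam n / (κ n * (Nat.log 2 (κ n * (Nat.log 2 (n + 2) / lam n + 1)) + 1))))
          {x | 1 / ((x.length : ℚ) + 2) ^ (e * κ x.length) ≤
            MvPolynomial.aeval (PT.point κ M c x) P}
          {x | MvPolynomial.aeval (PT.point κ M c x) P ≤ 0}) :=
  ⟨fun _ hA => cat_one hA,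
    fun _ hκ hκ1 _ hA => Cat.cat_bpl (Sel.lfx_of_constructible hκ) hκ1 hA,
    fun a b ha hb A hA => cat_real a b ha hb A hA,
    fun _ _ _ hκ hl hκ1 hρ _ hA =>
      Cat.cat_rate (Sel.lfx_of_constructible hκ) (Sel.lfx_of_constructible hl) hκ1 hρ hA,
    fun _ hκ hκ1 _ M c hM P e => PC.cat_poly hκ hκ1 M c hM P e,
    fun a b ha hb _ M c hM P e => PC.cat_polyB a b ha hb M c hM P e,
    fun _ _ hκ hl hκ1 _ M c hM hR P e => PC.cat_polyL hκ hl hκ1 M c hM hR P e⟩

end Vale.Agent.Results.P313.CatalyticTape
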