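import Vale.Agent.P313.H638.Fin

/-!
Products of substochastic matrices of medium width, and randomized machines which carry little
memory depending on their random bits, in small deterministic space.
-/

namespace Vale.Agent.Results.P313.MediumWidth

open Vale.Agent.P313 Vale.Agent.P313.MW

/-- `theS lam W g n = log (n + 2) + (lam + g + sqrt (lam + g) * W) * log (lam + g + 2)`.

Machines: `M` is a randomized machine in logarithmic space and polynomial time; whenever it asks
for a random bit, the work tapes not in `Dt` have few visited cells, and the run with random bits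
`0` asks for a bit with the same number, with the same position of the input head and the same
contents of the work tapes in `Dt` (`RTM.Carries`).

Matrices: the input `x` of length `n` holds two indices `u`, `v` of `W n` bits, a number `c` of
`r n + 1` bits and `2 ^ lam n` matrices `M_0, M_1, ...` of size `2 ^ W n` with entries
`k / 2 ^ K n`; all rows have sum at most `1`. -/
theorem result :
    -- `BPL` for machines which carry at most `k * sqrt (log n)` cells
    (∀ (A : Set (List Bool)) (M : RTM) (c k : ℕ) (Dt : Finset (Fin M.tapes)),
      M.Bounded (fun n => (n + 2) ^ c) (fun n => c * Nat.log 2 (n + 2)) →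
      M.Carries Dt (fun n => k * Nat.sqrt (Nat.log 2 (n + 2))) →
      (∀ x : List Bool,
        (x ∈ A → 2 / 3 ≤ M.probAt x true ((x.length + 2) ^ c) 0 M.init) ∧
        (x ∉ A → M.probAt x true ((x.length + 2) ^ c) 0 M.init ≤ 1 / 3)) →
      ∃ (D : RTM) (e : ℝ), D.Decides A
        (fun n => (2 : ℝ) ^ (e * (Real.logb 2 (n + 2) * Real.logb 2 (Real.logb 2 (n + 2) + 1))))
        (fun n => e * (Real.logb 2 (n + 2) * Real.logb 2 (Real.logb 2 (n + 2) + 1)))) ∧
    -- machines which carry at most `W` cells and ask for at most `2 ^ lam` random bits
    (∀ lam W g : ℕ → ℕ, LogConstructible lam → LogConstructible W → LogConstructible g →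
      ∀ (a b : ℕ), 0 < b → ∀ (M : RTM) (c : ℕ) (Dt : Finset (Fin M.tapes)),
      M.Bounded (fun n => (n + 2) ^ c) (fun n => c * Nat.log 2 (n + 2)) → M.Carries Dt W →
      (∀ (x : List Bool) (v : Bool),
        M.probAt x v ((x.length + 2) ^ c) (2 ^ lam x.length + 1) M.init = 0) →
      ∃ (A : Set (List Bool)) (D : RTM) (e : ℝ),
        D.Decides A (fun n => (2 : ℝ) ^ (e * theS lam W g n)) (fun n => e * theS lam W g n) ∧
        ∀ x : List Bool,
          ((a : ℚ) / b + 1 / 2 ^ g x.length ≤ M.probAt x true ((x.length + 2) ^ c) 0 M.init →
            x ∈ A) ∧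
          (M.probAt x true ((x.length + 2) ^ c) 0 M.init ≤ (a : ℚ) / b - 1 / 2 ^ g x.length →
            x ∉ A)) ∧
    -- matrices
    (∀ lam W K g r : ℕ → ℕ, LogConstructible lam → LogConstructible W → LogConstructible K →
      LogConstructible g → LogConstructible r → (∀ n, r n ≤ g n + W n) →
      -- comparison of an entry of the product with a threshold
      (∃ (A : Set (List Bool)) (D : RTM) (e : ℝ),
        D.Decides A (fun n => (2 : ℝ) ^ (e * theS lam W g n)) (fun n => e * theS lam W g n) ∧
        ∀ x : List Bool, SubSt x (lam x.length) (W x.length) (K x.length) (r x.length) →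
          (((num x (2 * W x.length) (r x.length + 1) : ℚ) + 1) / 2 ^ r x.length ≤
            prodM x (W x.length) (K x.length) (r x.length) (2 ^ lam x.length)
              (num x 0 (W x.length)) (num x (W x.length) (W x.length)) → x ∈ A) ∧
          (prodM x (W x.length) (K x.length) (r x.length) (2 ^ lam x.length)
              (num x 0 (W x.length)) (num x (W x.length) (W x.length)) ≤
            (num x (2 * W x.length) (r x.length + 1) : ℚ) / 2 ^ r x.length → x ∉ A)) ∧
      -- the bits of approximations of all entries
      ∃ (R : ℕ → (ℕ → ℕ → ℕ → ℕ) → ℕ → ℕ → ℕ) (D : RTM) (e : ℝ),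
        D.Decides {x | R x.length
            (fun t u v => entry x (W x.length) (K x.length) (r x.length) t u v)
            (num x 0 (W x.length)) (num x (W x.length) (W x.length)) /
              2 ^ num x (2 * W x.length) (r x.length + 1) % 2 = 1}
          (fun n => (2 : ℝ) ^ (e * theS lam W g n)) (fun n => e * theS lam W g n) ∧
        ∀ x : List Bool, SubSt x (lam x.length) (W x.length) (K x.length) (r x.length) →
          ∀ u < 2 ^ W x.length, ∀ v < 2 ^ W x.length,
            |(R x.length (fun t u v => entry x (W x.length) (K x.length) (r x.length) t u v)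
                u v : ℚ) / 2 ^ r x.length -
              prodM x (W x.length) (K x.length) (r x.length) (2 ^ lam x.length) u v| ≤
              1 / 2 ^ r x.length) :=
  ⟨fun _ _ _ _ _ hM hC hA => final_bpl hM hC hA,
    fun _ _ _ hlam hW hg _ _ hb _ _ _ hM hC hcoin => final_machine hlam hW hg hb hM hC hcoin,
    fun _ _ _ _ _ hlam hW hK hg hr hrg =>
      ⟨final_input_thr hlam hW hK hg hr hrg, final_input_bits hlam hW hK hg hr hrg⟩⟩

end Vale.Agent.Results.P313.MediumWidth
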