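import Vale.Agent.P313.AC.G.AllGap

/-!
`BPL` is contained in logspace-uniform `AC^1`; the acceptance probability of a machine in
logarithmic space and polynomial time up to `1 / n ^ k` in logspace-uniform `AC^1`.
-/

namespace Vale.Agent.Results.P313.UniformAC1

open Vale.Agent.P313 Vale.Agent.P313.AC

/-- (1) Every language in `BPL` is decided by circuits of polynomial size and logarithmic depth
with AND, OR and negated OR gates of unbounded fan-in, whose direct connection language is decided
by a deterministic machine in logarithmic space and polynomial time.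
(2) For every randomized machine in logarithmic space and polynomial time with acceptance
probability `p x`, and for all `k`, `a`, `b ≥ 1`, such circuits tell `p x ≥ a / b + (n + 2) ^ (-k)`
from `p x ≤ a / b - (n + 2) ^ (-k)`, where `n` is the length of `x`. -/
theorem result :
    (∀ A : Set (List Bool), BPL A → UniformAC1 A) ∧
    ∀ (M : RTM) (c : ℕ),
      M.Bounded (fun n => (n + 2) ^ c) (fun n => c * Nat.log 2 (n + 2)) →
      ∀ k a b : ℕ, 1 ≤ b → ∃ A : Set (List Bool), UniformAC1 A ∧ ∀ x : List Bool,
        ((a : ℚ) / b + 1 / ((x.length : ℚ) + 2) ^ k ≤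
          M.probAt x true ((x.length + 2) ^ c) 0 M.init → x ∈ A) ∧
        (M.probAt x true ((x.length + 2) ^ c) 0 M.init ≤
          (a : ℚ) / b - 1 / ((x.length : ℚ) + 2) ^ k → x ∉ A) :=
  ⟨goal, goalGap⟩

end Vale.Agent.Results.P313.UniformAC1
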