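import Vale.Agent.P313.H463.UV.Final

namespace Vale.Agent.Results.P313.UniversalDerandomizer

open Vale.Agent.P313 Vale.Agent.P313.UDS

/-- Deterministic space `log ^ (4/3)` for `BPL`; few random bits; a universal derandomizer. -/
theorem result :
    -- (1) `BPL` is contained in deterministic space `log ^ (4/3) n`
    (∀ A : Set (List Bool), BPL A → ∃ (D : RTM) (e : ℝ),
      D.Decides A
        (fun n => (2 : ℝ) ^ (e * Real.logb 2 (n + 2) ^ ((4 : ℝ) / 3)))
        (fun n => e * Real.logb 2 (n + 2) ^ ((4 : ℝ) / 3))) ∧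
    -- (2) the same bounds for every threshold `a / b` and polynomially small gaps
    (∀ (k a b : ℕ), 0 < b → ∀ (M : RTM) (c : ℕ),
      M.Bounded (fun n => (n + 2) ^ c) (fun n => c * Nat.log 2 (n + 2)) →
      ∃ (A : Set (List Bool)) (D : RTM) (e : ℝ),
        D.Decides A
          (fun n => (2 : ℝ) ^ (e * Real.logb 2 (n + 2) ^ ((4 : ℝ) / 3)))
          (fun n => e * Real.logb 2 (n + 2) ^ ((4 : ℝ) / 3)) ∧
        ∀ x : List Bool,
          ((a : ℚ) / b + 1 / (x.length + 2) ^ k ≤
            M.probAt x true ((x.length + 2) ^ c) 0 M.init → x ∈ A) ∧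
          (M.probAt x true ((x.length + 2) ^ c) 0 M.init ≤ (a : ℚ) / b - 1 / (x.length + 2) ^ k →
            x ∉ A)) ∧
    -- (3) machines which ask for at most `2 ^ lam` random bits, gap `2 ^ (-g)`
    (∀ (lam g : ℕ → ℕ) (k a b : ℕ), LogConstructible lam → LogConstructible g →
      (∀ n, g n ≤ k * Nat.log 2 (n + 2)) → 0 < b → ∀ (M : RTM) (c : ℕ),
      M.Bounded (fun n => (n + 2) ^ c) (fun n => c * Nat.log 2 (n + 2)) →
      (∀ (x : List Bool) (v : Bool),
        M.probAt x v ((x.length + 2) ^ c) (2 ^ lam x.length + 1) M.init = 0) →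
      ∃ (A : Set (List Bool)) (D : RTM) (e : ℝ),
        D.Decides A
          (fun n => (2 : ℝ) ^ (e * (Real.logb 2 (n + 2) * (((lam n : ℝ) + g n) ^ ((1 : ℝ) / 3) +
            Real.sqrt (Real.logb 2 (Real.logb 2 (n + 2) + 1))))))
          (fun n => e * (Real.logb 2 (n + 2) * (((lam n : ℝ) + g n) ^ ((1 : ℝ) / 3) +
            Real.sqrt (Real.logb 2 (Real.logb 2 (n + 2) + 1))))) ∧
        ∀ x : List Bool,
          ((a : ℚ) / b + 1 / 2 ^ g x.length ≤ M.probAt x true ((x.length + 2) ^ c) 0 M.init →
            x ∈ A) ∧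
          (M.probAt x true ((x.length + 2) ^ c) 0 M.init ≤ (a : ℚ) / b - 1 / 2 ^ g x.length →
            x ∉ A)) ∧
    -- (4) one universal derandomizer `U`, which gets the code of a randomized machine `M`; the
    -- randomized machine `R` answers explicit questions about chains
    (∃ (R : RTM) (c0 : ℕ), R.Bounded (fun n => (n + 2) ^ c0) (fun n => c0 * Nat.log 2 (n + 2)) ∧
      Answers R c0 ∧ ∃ U : RTM, U.Deterministic ∧
      (∀ (M : RTM) (c : ℕ) (l : List ℕ),
        M.Bounded (fun n => (n + 2) ^ c) (fun n => c * Nat.log 2 (n + 2)) → IsCode M c l →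
        ∃ (A : Set (List Bool)) (Q : List Bool → Set (List Bool)) (d : ℕ),
          -- with the code of `M`, the machine `U` decides `A` in space `log ^ (4/3) n`
          (∃ e : ℝ, DecidesFrom U (unary l) A
            (fun n => (2 : ℝ) ^ (e * Real.logb 2 (n + 2) ^ ((4 : ℝ) / 3)))
            (fun n => e * Real.logb 2 (n + 2) ^ ((4 : ℝ) / 3))) ∧
          -- `A` solves the promise problem of `M`
          (∀ x : List Bool,
            (2 / 3 ≤ M.probAt x true ((x.length + 2) ^ c) 0 M.init → x ∈ A) ∧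
            (M.probAt x true ((x.length + 2) ^ c) 0 M.init ≤ 1 / 3 → x ∉ A)) ∧
          -- the queries of `x` are questions about chains and have polynomial length
          (∀ x, ∀ y ∈ Q x, ChainQuery y ∧ y.length ≤ (x.length + 2) ^ d) ∧
          -- `U` is optimal on every input
          (∀ D' : RTM, D'.Deterministic → ∃ e : ℕ, ∀ (x : List Bool) (s : ℕ),
            ((∀ y ∈ Q x, SolvesFor D' R c0 y y s) ∨
              ∃ α : List Bool, α.length ≤ s ∧ ∀ y ∈ Q x, SolvesFor D' R c0 y (adv α y) s) →
            ∀ ω : ℕ → Bool,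
              (∀ t, 2 ^ (e * (s + Nat.log 2 (x.length + 2))) ≤ t →
                (x ∈ A → U.verdict (U.run (unary l ++ x) ω t).state = some true) ∧
                (x ∉ A → U.verdict (U.run (unary l ++ x) ω t).state = some false)) ∧
              ∀ t i, ((U.run (unary l ++ x) ω t).work i).cells ≤
                e * (s + Nat.log 2 (x.length + 2))) ∧
          -- `U` is at least as good as every derandomization of promise-`BPL`
          (∀ S : ℕ → ℝ, Nice S → PromiseBPLIn S ∨ PromiseBPLInAdvice S →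
            ∃ e : ℝ, DecidesFrom U (unary l) A (fun n => (2 : ℝ) ^ (e * S n))
              (fun n => e * S n))) ∧
      -- (5) the space of `U` with the code of `R` is the deterministic space complexity of
      -- promise-`BPL`; advice does not help
      (∀ l : List ℕ, IsCode R c0 l → ∀ S : ℕ → ℝ, Nice S → (PromiseBPLIn S ↔
        ∃ e : ℝ, ∀ (x : List Bool) (ω : ℕ → Bool) (t : ℕ) (i : Fin U.tapes),
          (((U.run (unary l ++ x) ω t).work i).cells : ℝ) ≤ e * S x.length)) ∧
      (∀ S : ℕ → ℝ, Nice S → PromiseBPLInAdvice S → PromiseBPLIn S)) ∧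
    -- every machine has a code; powers of the logarithm are allowed space bounds
    (∀ (M : RTM) (c : ℕ), ∃ l : List ℕ, IsCode M c l) ∧
    ∀ a : ℝ, 1 ≤ a → Nice (fun n => Real.logb 2 (n + 2) ^ a) :=
  ⟨bpl_four_thirds, fun k _ _ hb _ _ hM => Vale.Agent.P313.NW.ZL.all_coins k hb hM,
    fun _ _ _ _ _ hlam hg hgk hb _ _ hM hcoin =>
      Vale.Agent.P313.NW.ZL.few_coins hlam hg hgk hb hM hcoin,
    Vale.Agent.P313.UV.universal_code, Vale.Agent.P313.UV.code_exists, fun _ ha => nice_log ha⟩

end Vale.Agent.Results.P313.UniversalDerandomizer
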